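import Crest.Agent.X262.Surf.Defs
import Crest.Agent.X262.Mono15.Flag
import Crest.Agent.X262.Mono15.Dif
import Crest.Agent.X262.Sark27.Term
import Crest.Agent.X277.Lef.BaseCh

/-!
# Row 262, SURF, MONO (helper12, on the lemmas of helper15): `MonoStmt` and `CmpStmt`
-/

set_option autoImplicit false

open Polynomial
open scoped KaehlerDifferential

noncomputable section

namespace Crest.Agent.X262.Mono12

open Crest.Agent.X277 Crest.Agent.X277.Lef Crest.Agent.X277.AN.G1 Crest.Agent.X277.BD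
open Crest.Agent.X277.BD.Br Module Finset
open Crest.Agent.X277.Pst (Prm mem_of_loc)
open Crest.Agent.X262.Surf Crest.Agent.X262.Mono15
open Crest.Agent.R276.FKDefs_779 (IsDiv)

theorem cmpStmt : CmpStmt := by
  intro E F _ _ _ _ _ _ _ bE
  have : CharZero E := charZero_of_injective_algebraMap (algebraMap ℂ E).injective
  have := Algebra.FormallyEtale.of_isSeparable E F
  refine ⟨(bE.baseChange F).map (KaehlerDifferential.tensorKaehlerEquivOfFormallyEtale ℂ E F),
    fun a => jac_algebraMap bE _ (fun l => ?_) a⟩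
  rw [Basis.map_apply, Basis.baseChange_apply,
    KaehlerDifferential.tensorKaehlerEquivOfFormallyEtale_apply,
    KaehlerDifferential.mapBaseChange_tmul, one_smul]

theorem monoStmt : MonoStmt := by
  intro E F Ω _ _ _ _ _ _ _ _ _ _ _ _ _ B P bE bF m0 n s p W hG hC _ hp hW
  set V : RZ ℂ E := rsV (tw E Ω) W with hVdef
  have hV : IsDiv ℂ 2 V.1 := by
    have h := Prm.dvs hW
    have h2 : Gj.dm ℂ E = 2 := by rw [Gj.dm, finrank_eq_card_basis bE, Fintype.card_fin]
    rw [Pst.Dvs, h2] at h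
    exact h
  obtain ⟨u, hu⟩ : ∃ u : F, Mon V.1 u := exists_mon' (N8.trdeg_of_basis bE) hV
  set g : E := (m0 • oP B).gen V with hgdef
  have hg : V.v g = (m0 • oP B).val V := v_gen _ _
  have hg0 : g ≠ 0 := ne_of_val hg
  have h1 : ∀ b, IsIntegral V.1 (s b / algebraMap E F g) := fun b =>
    int_of_sec hg (by rw [map_nsmul]; exact hG.mem b)
  have h2 : ∀ a : F, IsIntegral V.1 a → a * algebraMap E F g ∈
      Submodule.span V.1 (Set.range s) := fun a ha => by
    obtain ⟨τ, h3, h4⟩ := hG.prm V hW g hg a ha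
    rw [mul_comm, ← Algebra.smul_def, h4]
    exact Submodule.sum_mem _ fun j _ => (Submodule.span V.1 (Set.range s)).smul_mem
      (⟨τ j, h3 j⟩ : V.1) (Submodule.subset_span ⟨j, rfl⟩)
  have hw : ∀ c : V.1, W.v (algebraMap E Ω c) ≤ 1 := fun c => RZ.le_one_iff.2 c.2
  have hq : ∀ (i : ℕ) (e : E), (p i : F →+* Ω) (algebraMap E F e) = algebraMap E Ω e :=
    fun i e => (p i).commutes e
  have hH : (m0 • pb (tw E Ω) (oP B)).val W = W.v (algebraMap E Ω g) := by
    rw [← map_nsmul]
    exact val_mp hg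
  have hG0 : W.v (algebraMap E Ω g) ≠ 0 := hH ▸ val_ne _ _
  have hpi : Set.InjOn (fun i => (p i : F →+* Ω)) (Set.Iio (finrank E F)) := fun i hi j hj h =>
    hp hi hj (AlgHom.coe_ringHom_injective h)
  have hx : ∀ a < finrank E F, ∀ r < finrank E F, a ≠ r →
      (xx B m0 s (p a) (p r)).val W = (W.v (p r u - p a u))⁻¹ := fun a ha r hr h => by
    have h3 := val_sub' hu hw hg0 h1 h2 (hq a) (hq r) fun h4 => h (hpi ha hr h4)
    rw [xx, val_sub, hH]
    erw [h3]
    rw [div_mul_cancel_left₀ hG0, Valuation.map_sub_swap]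
    rfl
  have hne : ∀ a < finrank E F, ∀ r < finrank E F, a ≠ r → W.v (p r u - p a u) ≠ 0 :=
    fun a ha r hr h => RZ.ne_zero_iff.2 (sub_ne_zero.2 fun h4 =>
      h (hpi ha hr (hu.eq_of_eq (hq a) (hq r) h4.symm)))
  have hD : ∀ r ≤ finrank E F, (Dm (cj s p) r).val W = W.v (algebraMap E Ω g) ^ r *
      W.v (Matrix.vandermonde fun a : Fin r => p a u).det := fun r hr =>
    val_det hu hw hg0 h1 h2 (p := fun a : Fin r => (p a : F →+* Ω)) (fun a => hq a)
      fun a b h => Fin.ext (hpi (a.2.trans_le hr) (b.2.trans_le hr) h)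
  refine ⟨fun r hr => ?_, fun i hi => ?_⟩
  · have h3 : W.v (Matrix.vandermonde fun a : Fin r => p a u).det ≠ 0 := fun h0 => by
      have h4 := val_ne (Dm (cj s p) r) W
      rw [hD r hr.le, h0, mul_zero] at h4
      exact h4 rfl
    have h4 : ∏ a ∈ range r, W.v (p r u - p a u) ≠ 0 := prod_ne_zero_iff.2 fun a ha =>
      hne a ((mem_range.1 ha).trans hr) r hr (mem_range.1 ha).ne
    rw [val_add, Nm, val_sub, hD r hr.le, hD (r + 1) hr, vdm_succ, val_sum, hH,
      prod_congr rfl fun a ha => hx a ((mem_range.1 ha).trans hr) r hr (mem_range.1 ha).ne,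
      prod_inv_distrib, map_mul, map_prod]
    have h5 : ∏ a : Fin r, W.v (p (Fin.last r : ℕ) u - p (a.castSucc : ℕ) u) =
        ∏ a ∈ range r, W.v (p r u - p a u) :=
      Fin.prod_univ_eq_prod_range (fun a => W.v (p r u - p a u)) r
    rw [h5]
    change _ * (W.v (Matrix.vandermonde fun a : Fin r => p a u).det * _) / _ * _ = _
    field_simp
    exact pow_succ _ _
  · set O : RZ ℂ F := rsV ((p i).restrictScalars ℂ) W with hOdef
    have hO : O.1.comap (algebraMap E F) = V.1 := ValuationSubring.ext _ _ fun x => by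
      change p i (algebraMap E F x) ∈ W.1 ↔ algebraMap E Ω x ∈ W.1
      rw [(p i).commutes]
    obtain ⟨y, z, hy, -, -, hz, h3⟩ := hurwitz hV hO hu (bE := bE) (bF := bF) hC
    obtain ⟨z', h4, h5⟩ := Sark27.exists_jac P O bF
    have h6 : O.v (jac bF z') ≤ O.v (jac bF z) := hz z' fun l => mem_of_loc (h4 l)
    have h7 : W.v (algebraMap E Ω (jac bE y)) ≤ (pb (tw E Ω) (kP B bE)).val W :=
      v_le_val_mp.2 (Sark27.jac_le_kP bE hW hy)
    have h8 : W.v (p i (jac bF z) * p i (aeval u (derivative (minpoly V.1 u)))) =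
        W.v (algebraMap E Ω (jac bE y)) := by
      rw [← map_mul, ← (p i).commutes]
      refine (v_cm_eq_iff _ (alg_ov ((p i).restrictScalars ℂ))).1 ?_
      rw [map_mul]
      exact h3
    have h9 := hu.deriv_eq' (T := range (finrank E F)) (p := fun i => (p i : F →+* Ω)) hq
      (by rw [coe_range]; exact hpi) (card_range _).ge (mem_range.2 hi)
    have h10 : ∏ a ∈ (range (finrank E F)).erase i, W.v (p i u - p a u) ≠ 0 :=
      prod_ne_zero_iff.2 fun a ha =>
        hne a (mem_range.1 (mem_erase.1 ha).2) i hi (mem_erase.1 ha).1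
    rw [map_mul] at h8
    erw [h9] at h8
    rw [map_prod] at h8
    rw [val_add, val_sum, prod_congr rfl fun a ha =>
      hx a (mem_range.1 (mem_erase.1 ha).2) i hi (mem_erase.1 ha).1, prod_inv_distrib,
      le_mul_inv_iff₀ (zero_lt_iff.2 h10)]
    refine le_trans (mul_le_mul_left ?_ _) (h8.trans_le h7)
    exact (val_mp h5).trans_le ((v_cm_le_iff _ _).1 h6)

end Crest.Agent.X262.Mono12
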